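import Vale.Agent.P264.Final2
import Vale.Agent.P264.Soliton.Inner.Main
import Vale.Agent.P264.Manifold.InvariantAssembly
import Vale.Agent.P264.Manifold.FubiniStudy

/-!
P264, Q1: the Calabi flow need not exist for all time.
-/

namespace Vale.Agent.Results.P264.CalabiFlowBlowUp

open Vale.Agent.P264 Vale.Agent.P264.Manifold

/-- A Kaehler form on complex projective 8-space has no smooth Calabi flow up to time one. The
second part shows that the notion of flow is not empty: Fubini-Study is a stationary flow. -/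
theorem result :
    (∃ L : ℝ, 0 < L ∧ ∃ ψ₀ : Hom → ℝ, IsKahlerPotential L ψ₀ ∧
      ∀ b T : ℝ, 1 ≤ T → ∀ ψ, ¬ IsCalabiFlow L T b ψ₀ ψ) ∧
    (∀ L T : ℝ, 0 < L → IsCalabiFlow L T (72 / L) (fun _ => 0) (fun _ _ => 0)) :=
  ⟨Final.manifold_disproof Soliton.inner_target invariantFlow, fun _ T hL => isCalabiFlow_fs hL T⟩

end Vale.Agent.Results.P264.CalabiFlowBlowUp
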